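import Vale.Agent.P167.A.Grid

/-!
# P167, block A1: Baxter-Kelland-Wu on a finite grid
-/

namespace Vale.Agent.P167.A

open Finset
open Vale.Agent.P152 (Edge Ori vw wt)

section perm

variable {E : Type} [Fintype E] [DecidableEq E] (σ : Equiv.Perm E)

instance : DecidableRel (Equiv.Perm.SameCycle.setoid σ).r := fun x y =>
  inferInstanceAs (Decidable (Equiv.Perm.SameCycle σ x y))

/-- The cycles (including fixed points) of a permutation. -/
abbrev Orb := Quotient (Equiv.Perm.SameCycle.setoid σ)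

instance : Fintype (Orb σ) := Quotient.fintype _

instance : DecidableEq (Orb σ) := Quotient.decidableEq

/-- The class of an element. -/
def cls (e : E) : Orb σ := Quotient.mk _ e

omit [Fintype E] [DecidableEq E] in
theorem cls_apply (e : E) : cls σ (σ e) = cls σ e :=
  Quotient.sound (Equiv.Perm.sameCycle_apply_left.2 (Equiv.Perm.SameCycle.refl σ e))

/-- The invariant functions are the functions of the cycle. -/
def invEquiv (β : Type) : (Orb σ → β) ≃ {s : E → β // ∀ e, s (σ e) = s e} where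
  toFun t := ⟨fun e => t (cls σ e), fun e => by dsimp only; rw [cls_apply]⟩
  invFun s := Quotient.lift s.1 (by
    intro a b hab
    obtain ⟨n, hn⟩ : Equiv.Perm.SameCycle σ a b := hab
    have h1 : ∀ (k : ℕ) (x : E), s.1 ((σ ^ k) x) = s.1 x := by
      intro k
      induction k with
      | zero => intro x; rfl
      | succ k ih =>
        intro x
        rw [pow_succ', Equiv.Perm.mul_apply, s.2, ih]
    have h2 : ∀ (k : ℤ) (x : E), s.1 ((σ ^ k) x) = s.1 x := by
      intro k x
      rcases Int.eq_nat_or_neg k with ⟨m, rfl | rfl⟩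
      · rw [zpow_natCast]; exact h1 m x
      · have := h1 m ((σ ^ (-(m : ℤ))) x)
        rw [← this, ← Equiv.Perm.mul_apply, zpow_neg, zpow_natCast, mul_inv_cancel,
          Equiv.Perm.one_apply]
    rw [← hn, h2])
  left_inv t := by
    funext O
    induction O using Quotient.inductionOn
    rfl
  right_inv s := by
    apply Subtype.ext
    rfl

theorem sum_inv {R : Type} [CommSemiring R] (y : E → Bool → R) :
    ∑ s : E → Bool, (if ∀ e, s (σ e) = s e then ∏ e, y e (s e) else 0) =
      ∏ O : Orb σ, ∑ b : Bool, ∏ e with cls σ e = O, y e b := by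
  rw [← Finset.sum_filter]
  have h1 : ∑ s : E → Bool with ∀ e, s (σ e) = s e, ∏ e, y e (s e) =
      ∑ s : {s : E → Bool // ∀ e, s (σ e) = s e}, ∏ e, y e (s.1 e) := by
    rw [← Finset.sum_subtype_eq_sum_filter]
    simp
  rw [h1, ← Equiv.sum_comp (invEquiv σ Bool)]
  rw [Finset.prod_univ_sum]
  rw [Fintype.piFinset_univ]
  refine Finset.sum_congr rfl fun t _ => ?_
  rw [← Finset.prod_fiberwise (s := (Finset.univ : Finset E)) (g := cls σ)]
  refine Finset.prod_congr rfl fun O _ => ?_
  refine Finset.prod_congr rfl fun e he => ?_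
  rw [Finset.mem_filter] at he
  show y e (t (cls σ e)) = _
  rw [he.2]

end perm

variable {V : Type} [Fintype V] [DecidableEq V] (g : Grid V)

/-- First incoming edge. -/
def in1 (v : V) : Edge V := if g.par v then Sum.inr (g.e2.symm v) else Sum.inl (g.e1.symm v)
/-- Second incoming edge. -/
def in2 (v : V) : Edge V := if g.par v then Sum.inr v else Sum.inl v
/-- First outgoing edge. -/
def ou1 (v : V) : Edge V := if g.par v then Sum.inl (g.e1.symm v) else Sum.inr v
/-- Second outgoing edge. -/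
def ou2 (v : V) : Edge V := if g.par v then Sum.inl v else Sum.inr (g.e2.symm v)

omit [Fintype V] [DecidableEq V] in
theorem nx_in1 (ρ : V → Bool) (v : V) : g.nx ρ (in1 g v) = if ρ v then ou2 g v else ou1 g v := by
  cases h : g.par v <;> cases h2 : ρ v <;> simp [in1, ou1, ou2, Grid.nx, h, h2, g.p1', g.p2']

omit [Fintype V] [DecidableEq V] in
theorem nx_in2 (ρ : V → Bool) (v : V) : g.nx ρ (in2 g v) = if ρ v then ou1 g v else ou2 g v := by
  cases h : g.par v <;> cases h2 : ρ v <;> simp [in2, ou1, ou2, Grid.nx, h, h2]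

omit [Fintype V] [DecidableEq V] in
theorem hd_in1 (v : V) : g.hd (in1 g v) = v := by
  cases h : g.par v <;> simp [in1, Grid.hd, h, g.p1', g.p2']

omit [Fintype V] [DecidableEq V] in
theorem hd_in2 (v : V) : g.hd (in2 g v) = v := by
  cases h : g.par v <;> simp [in2, Grid.hd, h]

omit [Fintype V] [DecidableEq V] in
theorem in_hd (e : Edge V) : e = in1 g (g.hd e) ∨ e = in2 g (g.hd e) := by
  rcases e with v | v
  · cases h : g.par v
    · right; simp [in2, Grid.hd, h]
    · left; simp [in1, Grid.hd, h, g.p1]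
  · cases h : g.par v
    · left; simp [in1, Grid.hd, h, g.p2]
    · right; simp [in2, Grid.hd, h]

omit [Fintype V] [DecidableEq V] in
theorem forall_in (P : Edge V → Prop) :
    (∀ v, P (in1 g v) ∧ P (in2 g v)) ↔ ∀ e, P e := by
  constructor
  · intro h e
    rcases in_hd g e with h1 | h1
    · rw [h1]; exact (h _).1
    · rw [h1]; exact (h _).2
  · intro h v
    exact ⟨h _, h _⟩

omit [DecidableEq V] in
theorem prod_in {R : Type} [CommMonoid R] (F : Edge V → R) :
    ∏ v, (F (in1 g v) * F (in2 g v)) = ∏ e, F e := by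
  rw [Fintype.prod_sum_type]
  have h1 : ∏ v, F (Sum.inl v) = (∏ v, if g.par v then 1 else F (Sum.inl (g.e1.symm v))) *
      ∏ v, if g.par v then 1 else F (Sum.inl v) := by
    have h2 : ∏ v, (if g.par v then 1 else F (Sum.inl (g.e1.symm v))) =
        ∏ v, (if g.par v then F (Sum.inl v) else 1) := by
      rw [← Equiv.prod_comp g.e1]
      refine Finset.prod_congr rfl fun v _ => ?_
      rw [g.p1, Equiv.symm_apply_apply]
      cases g.par v <;> simp
    rw [h2, ← Finset.prod_mul_distrib]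
    refine Finset.prod_congr rfl fun v _ => ?_
    cases g.par v <;> simp
  have h3 : ∏ v, F (Sum.inr v) = (∏ v, if g.par v then F (Sum.inr (g.e2.symm v)) else 1) *
      ∏ v, if g.par v then F (Sum.inr v) else 1 := by
    have h2 : ∏ v, (if g.par v then F (Sum.inr (g.e2.symm v)) else 1) =
        ∏ v, (if g.par v then 1 else F (Sum.inr v)) := by
      rw [← Equiv.prod_comp g.e2]
      refine Finset.prod_congr rfl fun v _ => ?_
      rw [g.p2, Equiv.symm_apply_apply]
      cases g.par v <;> simp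
    rw [h2, ← Finset.prod_mul_distrib]
    refine Finset.prod_congr rfl fun v _ => ?_
    cases g.par v <;> simp
  rw [h1, h3, ← Finset.prod_mul_distrib, ← Finset.prod_mul_distrib, ← Finset.prod_mul_distrib]
  refine Finset.prod_congr rfl fun v _ => ?_
  cases h : g.par v <;> simp [in1, in2, h]

/-- The phase of a strand which turns. -/
noncomputable def ph (θ : ℝ) (q b : Bool) : ℂ :=
  Complex.exp (Complex.I * ((θ / 4 * (if q then -1 else 1) * (if b then 1 else -1) : ℝ) : ℂ))

/-- Vertex factor. -/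
noncomputable def FF (θ : ℝ) (s : Edge V → Bool) (v : V) (q : Bool) : ℂ :=
  if s (if q then ou2 g v else ou1 g v) = s (in1 g v) ∧
    s (if q then ou1 g v else ou2 g v) = s (in2 g v)
  then ph θ q (s (in1 g v)) * ph θ q (s (in2 g v)) else 0

/-- Arrow in terms of the canonical direction. -/
def toOri (s : Edge V → Bool) : Ori V := fun e => if g.sg e = 1 then s e else !(s e)

theorem ph_mul (θ : ℝ) (q b b' : Bool) : ph θ q b * ph θ q b' =
    if b = b' then Complex.exp (Complex.I * ((θ / 2 * (if q then -1 else 1) *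
      (if b then 1 else -1) : ℝ) : ℂ)) else 1 := by
  rw [ph, ph, ← Complex.exp_add]
  cases q <;> cases b <;> cases b' <;> simp <;> ring_nf

theorem cos_two (θ : ℝ) : ((2 * Real.cos (θ / 2) : ℝ) : ℂ) =
    Complex.exp (Complex.I * (((θ / 2) : ℝ) : ℂ)) +
      Complex.exp (Complex.I * ((-(θ / 2) : ℝ) : ℂ)) := by
  rw [Complex.ofReal_mul, Complex.ofReal_cos, Complex.cos]
  push_cast
  ring_nf

/-- The sum over the two resolutions, in terms of the values on the incoming edges `a1, a2` and the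
outgoing edges `a3, a4`. -/
noncomputable def KK (θ : ℝ) (a1 a2 a3 a4 : Bool) : ℂ :=
  (if a4 = a1 ∧ a3 = a2 then ph θ true a1 * ph θ true a2 else 0) +
    (if a3 = a1 ∧ a4 = a2 then ph θ false a1 * ph θ false a2 else 0)

theorem KK_odd (θ : ℝ) (a1 a2 a3 a4 : Bool) :
    ((vw (2 * Real.cos (θ / 2)) a1 (!a2) (!a4) a3 : ℝ) : ℂ) = KK θ a1 a2 a3 a4 := by
  have h := cos_two θ
  simp only [KK, ph_mul]
  cases a1 <;> cases a2 <;> cases a3 <;> cases a4 <;> simp [vw] <;>
    (push_cast at h; rw [h]; ring_nf)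

theorem KK_even (θ : ℝ) (a1 a2 a3 a4 : Bool) :
    ((vw (2 * Real.cos (θ / 2)) (!a3) a4 a1 (!a2) : ℝ) : ℂ) = KK θ a1 a2 a3 a4 := by
  have h := cos_two θ
  simp only [KK, ph_mul]
  cases a1 <;> cases a2 <;> cases a3 <;> cases a4 <;> simp [vw] <;>
    (push_cast at h; rw [h]; ring_nf)

omit [Fintype V] [DecidableEq V] in
theorem vertex (θ : ℝ) (s : Edge V → Bool) (v : V) :
    ((vw (2 * Real.cos (θ / 2)) (toOri g s (Sum.inl (g.e1.symm v))) (toOri g s (Sum.inl v))
      (toOri g s (Sum.inr (g.e2.symm v))) (toOri g s (Sum.inr v)) : ℝ) : ℂ) =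
      ∑ q : Bool, FF g θ s v q := by
  rw [Fintype.sum_bool]
  have hK : FF g θ s v true + FF g θ s v false =
      KK θ (s (in1 g v)) (s (in2 g v)) (s (ou1 g v)) (s (ou2 g v)) := by
    simp [FF, KK]
  rw [hK]
  cases h : g.par v
  · have e1 : in1 g v = Sum.inl (g.e1.symm v) := by simp [in1, h]
    have e2 : in2 g v = Sum.inl v := by simp [in2, h]
    have e3 : ou1 g v = Sum.inr v := by simp [ou1, h]
    have e4 : ou2 g v = Sum.inr (g.e2.symm v) := by simp [ou2, h]
    have s1 : g.sg (Sum.inl (g.e1.symm v)) = 1 := by simp [Grid.sg, g.p1', h]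
    have s2 : g.sg (Sum.inl v) = -1 := by simp [Grid.sg, h]
    have s3 : g.sg (Sum.inr v) = 1 := by simp [Grid.sg, h]
    have s4 : g.sg (Sum.inr (g.e2.symm v)) = -1 := by simp [Grid.sg, g.p2', h]
    rw [← KK_odd, e1, e2, e3, e4]
    simp [toOri, s1, s2, s3, s4]
  · have e1 : in1 g v = Sum.inr (g.e2.symm v) := by simp [in1, h]
    have e2 : in2 g v = Sum.inr v := by simp [in2, h]
    have e3 : ou1 g v = Sum.inl (g.e1.symm v) := by simp [ou1, h]
    have e4 : ou2 g v = Sum.inl v := by simp [ou2, h]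
    have s1 : g.sg (Sum.inr (g.e2.symm v)) = 1 := by simp [Grid.sg, g.p2', h]
    have s2 : g.sg (Sum.inr v) = -1 := by simp [Grid.sg, h]
    have s3 : g.sg (Sum.inl (g.e1.symm v)) = -1 := by simp [Grid.sg, g.p1', h]
    have s4 : g.sg (Sum.inl v) = 1 := by simp [Grid.sg, h]
    rw [← KK_even, e1, e2, e3, e4]
    simp [toOri, s1, s2, s3, s4]

/-- The sum of the turns and the charges of a loop. -/
noncomputable def ang (θ : ℝ) (a : Edge V → ℝ) (ρ : V → Bool) (O : Orb (g.nxP ρ)) : ℝ :=
  ∑ e with cls (g.nxP ρ) e = O, (θ / 4 * g.turn ρ e + a e * g.sg e)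

omit [Fintype V] [DecidableEq V] in
theorem sg_cases (e : Edge V) : g.sg e = 1 ∨ g.sg e = -1 := by
  rcases e with v | v <;> cases h : g.par v <;> simp [Grid.sg, h]

omit [Fintype V] [DecidableEq V] in
theorem toOri_invol (s : Edge V → Bool) : toOri g (toOri g s) = s := by
  funext e
  rcases sg_cases g e with h | h <;> simp [toOri, h]

omit [DecidableEq V] in
theorem prod_FF (θ : ℝ) (s : Edge V → Bool) (ρ : V → Bool) :
    ∏ v, FF g θ s v (ρ v) =
      if ∀ e, s (g.nxP ρ e) = s e then ∏ e, ph θ (ρ (g.hd e)) (s e) else 0 := by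
  have h1 : ∀ v, FF g θ s v (ρ v) =
      if s (g.nx ρ (in1 g v)) = s (in1 g v) ∧ s (g.nx ρ (in2 g v)) = s (in2 g v)
      then ph θ (ρ (g.hd (in1 g v))) (s (in1 g v)) * ph θ (ρ (g.hd (in2 g v))) (s (in2 g v))
      else 0 := by
    intro v
    rw [nx_in1, nx_in2, hd_in1, hd_in2, FF]
  simp only [h1]
  split_ifs with h
  · rw [← forall_in g (fun e => s (g.nxP ρ e) = s e)] at h
    rw [← prod_in g (fun e => ph θ (ρ (g.hd e)) (s e))]
    refine Finset.prod_congr rfl fun v _ => ?_
    exact if_pos (h v)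
  · rw [← forall_in g (fun e => s (g.nxP ρ e) = s e), not_forall] at h
    obtain ⟨v, hv⟩ := h
    exact Finset.prod_eq_zero (Finset.mem_univ v) (if_neg hv)

/-- Baxter-Kelland-Wu. -/
theorem bkwC (θ : ℝ) (a : Edge V → ℝ) :
    ∑ ω : Ori V, ((∏ v, vw (2 * Real.cos (θ / 2)) (ω (Sum.inl (g.e1.symm v))) (ω (Sum.inl v))
        (ω (Sum.inr (g.e2.symm v))) (ω (Sum.inr v)) : ℝ) : ℂ) *
        Complex.exp (Complex.I * ((∑ e, a e * (if ω e then 1 else -1) : ℝ) : ℂ)) =
      ((∑ ρ : V → Bool, ∏ O : Orb (g.nxP ρ), 2 * Real.cos (ang g θ a ρ O) : ℝ) : ℂ) := by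
  let T : Ori V ≃ (Edge V → Bool) :=
    { toFun := toOri g, invFun := toOri g, left_inv := toOri_invol g, right_inv := toOri_invol g }
  rw [← Equiv.sum_comp T.symm]
  have h1 : ∀ s : Edge V → Bool,
      ((∏ v, vw (2 * Real.cos (θ / 2)) (T.symm s (Sum.inl (g.e1.symm v))) (T.symm s (Sum.inl v))
        (T.symm s (Sum.inr (g.e2.symm v))) (T.symm s (Sum.inr v)) : ℝ) : ℂ) *
        Complex.exp (Complex.I * ((∑ e, a e * (if T.symm s e then 1 else -1) : ℝ) : ℂ)) =
      ∑ ρ : V → Bool, if ∀ e, s (g.nxP ρ e) = s e then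
        ∏ e, (ph θ (ρ (g.hd e)) (s e) *
          Complex.exp (Complex.I * ((a e * g.sg e * (if s e then 1 else -1) : ℝ) : ℂ))) else 0 := by
    intro s
    have h2 : ((∏ v, vw (2 * Real.cos (θ / 2)) (T.symm s (Sum.inl (g.e1.symm v)))
        (T.symm s (Sum.inl v)) (T.symm s (Sum.inr (g.e2.symm v))) (T.symm s (Sum.inr v)) : ℝ) : ℂ) =
        ∑ ρ : V → Bool, ∏ v, FF g θ s v (ρ v) := by
      rw [Complex.ofReal_prod]
      have : ∀ v, ((vw (2 * Real.cos (θ / 2)) (T.symm s (Sum.inl (g.e1.symm v)))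
        (T.symm s (Sum.inl v)) (T.symm s (Sum.inr (g.e2.symm v))) (T.symm s (Sum.inr v)) : ℝ) : ℂ) =
        ∑ q : Bool, FF g θ s v q := fun v => vertex g θ s v
      simp only [this]
      rw [Finset.prod_univ_sum, Fintype.piFinset_univ]
    have h3 : Complex.exp (Complex.I * ((∑ e, a e * (if T.symm s e then 1 else -1) : ℝ) : ℂ)) =
        ∏ e, Complex.exp (Complex.I * ((a e * g.sg e * (if s e then 1 else -1) : ℝ) : ℂ)) := by
      rw [← Complex.exp_sum, Complex.ofReal_sum, Finset.mul_sum]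
      congr 1
      refine Finset.sum_congr rfl fun e _ => ?_
      congr 2
      have : T.symm s e = toOri g s e := rfl
      rw [this]
      rcases sg_cases g e with h | h <;> cases h' : s e <;> simp [toOri, h, h']
    rw [h2, h3, Finset.sum_mul]
    refine Finset.sum_congr rfl fun ρ _ => ?_
    rw [prod_FF]
    split_ifs with h
    · rw [Finset.prod_mul_distrib]
    · rw [zero_mul]
  rw [Finset.sum_congr rfl fun s _ => h1 s, Finset.sum_comm, Complex.ofReal_sum]
  refine Finset.sum_congr rfl fun ρ _ => ?_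
  rw [sum_inv (g.nxP ρ) (fun e b => ph θ (ρ (g.hd e)) b *
    Complex.exp (Complex.I * ((a e * g.sg e * (if b then 1 else -1) : ℝ) : ℂ)))]
  rw [Complex.ofReal_prod]
  refine Finset.prod_congr rfl fun O _ => ?_
  have h4 : ∀ b : Bool, ∏ e with cls (g.nxP ρ) e = O, (ph θ (ρ (g.hd e)) b *
      Complex.exp (Complex.I * ((a e * g.sg e * (if b then 1 else -1) : ℝ) : ℂ))) =
      Complex.exp (Complex.I * ((ang g θ a ρ O * (if b then 1 else -1) : ℝ) : ℂ)) := by
    intro b
    simp only [ph, ← Complex.exp_add]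
    rw [← Complex.exp_sum, ang, Finset.sum_mul, Complex.ofReal_sum, Finset.mul_sum]
    congr 1
    refine Finset.sum_congr rfl fun e _ => ?_
    rw [← mul_add, ← Complex.ofReal_add]
    congr 2
    simp only [Grid.turn]
    push_cast
    cases ρ (g.hd e) <;> cases b <;> simp <;> ring
  simp only [h4]
  rw [Fintype.sum_bool]
  push_cast
  rw [Complex.cos]
  simp
  ring_nf

/-- Baxter-Kelland-Wu, real form. -/
theorem bkw (θ : ℝ) (a : Edge V → ℝ) :
    ∑ ω : Ori V, (∏ v, vw (2 * Real.cos (θ / 2)) (ω (Sum.inl (g.e1.symm v))) (ω (Sum.inl v))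
        (ω (Sum.inr (g.e2.symm v))) (ω (Sum.inr v))) *
        Real.cos (∑ e, a e * (if ω e then 1 else -1)) =
      ∑ ρ : V → Bool, ∏ O : Orb (g.nxP ρ), 2 * Real.cos (ang g θ a ρ O) := by
  have h := congrArg Complex.re (bkwC g θ a)
  rw [Complex.ofReal_re, Complex.re_sum] at h
  rw [← h]
  refine Finset.sum_congr rfl fun ω _ => ?_
  rw [Complex.re_ofReal_mul, mul_comm Complex.I, Complex.exp_ofReal_mul_I_re]

/-- The partition function. -/
theorem bkw_zero (θ : ℝ) :
    ∑ ω : Ori V, (∏ v, vw (2 * Real.cos (θ / 2)) (ω (Sum.inl (g.e1.symm v))) (ω (Sum.inl v))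
        (ω (Sum.inr (g.e2.symm v))) (ω (Sum.inr v))) =
      ∑ ρ : V → Bool, ∏ O : Orb (g.nxP ρ), 2 * Real.cos (ang g θ 0 ρ O) := by
  rw [← bkw]
  simp

end Vale.Agent.P167.A
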