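import Vale.Agent.P167.A.Bkw

/-!
# P167, block A1: the identity on the torus
-/

namespace Vale.Agent.P167.A

open Finset
open Vale.Agent.P152 (Edge Ori vw wt)

variable {M L : ℕ} [NeZero M] [NeZero L]

theorem wt_eq (hM : Even M) (hL : Even L) (c : ℝ) (ω : Ori (ZMod M × ZMod L)) :
    wt c ω = ∏ v, vw c (ω (Sum.inl ((torus M L hM hL).e1.symm v))) (ω (Sum.inl v))
      (ω (Sum.inr ((torus M L hM hL).e2.symm v))) (ω (Sum.inr v)) := by
  unfold wt
  refine Finset.prod_congr rfl fun v _ => ?_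
  have h1 : (torus M L hM hL).e1.symm v = (v.1 - 1, v.2) := by
    rw [Equiv.symm_apply_eq]
    simp [torus]
  have h2 : (torus M L hM hL).e2.symm v = (v.1, v.2 - 1) := by
    rw [Equiv.symm_apply_eq]
    simp [torus]
  rw [h1, h2]

/-- Baxter-Kelland-Wu on the torus. -/
theorem tor_id (hM : Even M) (hL : Even L) (θ : ℝ) (a : Edge (ZMod M × ZMod L) → ℝ) :
    ∑ ω : Ori (ZMod M × ZMod L), wt (2 * Real.cos (θ / 2)) ω *
        Real.cos (∑ e, a e * (if ω e then 1 else -1)) =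
      ∑ ρ : ZMod M × ZMod L → Bool, ∏ O : Orb ((torus M L hM hL).nxP ρ),
        2 * Real.cos (ang (torus M L hM hL) θ a ρ O) := by
  rw [← bkw]
  refine Finset.sum_congr rfl fun ω _ => ?_
  rw [wt_eq hM hL]

theorem tor_id_zero (hM : Even M) (hL : Even L) (θ : ℝ) :
    ∑ ω : Ori (ZMod M × ZMod L), wt (2 * Real.cos (θ / 2)) ω =
      ∑ ρ : ZMod M × ZMod L → Bool, ∏ O : Orb ((torus M L hM hL).nxP ρ),
        2 * Real.cos (ang (torus M L hM hL) θ 0 ρ O) := by
  rw [← tor_id]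
  simp

end Vale.Agent.P167.A
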